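import Mathlib

/-!
P322, potential method, range `ρ ≤ 7/10`: two polynomial inequalities.
-/

namespace Vale.Agent.Lib.P322.Pot

lemma cubic_nonneg2 {A B C θ t : ℝ} (hA : 0 ≤ A) (hθ0 : 0 ≤ θ) (hθ1 : θ ≤ 1) (ht : 0 ≤ t)
    (hz : 0 ≤ C - 2 * A * t ^ 3) (ho : 0 ≤ C - 2 * A * t ^ 3 + B + 3 * A * t ^ 2) :
    0 ≤ A * θ ^ 3 + B * θ + C := by
  have h1 : 0 ≤ A * ((θ - t) ^ 2 * (θ + 2 * t)) := by positivity
  have h2 : 0 ≤ (1 - θ) * (C - 2 * A * t ^ 3) := mul_nonneg (by linarith) hz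
  have h3 : 0 ≤ θ * (C - 2 * A * t ^ 3 + B + 3 * A * t ^ 2) := mul_nonneg hθ0 ho
  nlinarith [h1, h2, h3]

lemma ax2_piece {θ m f : ℝ} (a b K t : ℝ) (hθ0 : 0 ≤ θ) (hθ1 : θ ≤ 1)
    (ha : 0 ≤ a) (ham : a ≤ m) (hmb : m ≤ b) (hK0 : 0 ≤ K) (hK : (K + 1) * b ≤ 1) (ht : 0 ≤ t)
    (hz : 0 ≤ (2 * (143 / 100) * (12 / 10) * (6931 / 10000)
        * (1 / 2 + a / 12 + a ^ 2 / 30 + a ^ 3 / 56 + a ^ 4 / 90 + a ^ 5 / 132) - 1)
      - 2 * (2 * (8 / 100) * K) * t ^ 3)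
    (ho : 0 ≤ (2 * (143 / 100) * (12 / 10) * (6931 / 10000)
        * (1 / 2 + a / 12 + a ^ 2 / 30 + a ^ 3 / 56 + a ^ 4 / 90 + a ^ 5 / 132) - 1)
      - 2 * (2 * (8 / 100) * K) * t ^ 3
      + (2 * (143 / 100) * (12 / 10) * (1 - 6931 / 10000)
          * (1 / 2 + a / 12 + a ^ 2 / 30 + a ^ 3 / 56 + a ^ 4 / 90 + a ^ 5 / 132) - 1)
      + 3 * (2 * (8 / 100) * K) * t ^ 2)
    (hf : m / 2 + m ^ 2 / 12 + m ^ 3 / 30 + m ^ 4 / 56 + m ^ 5 / 90 + m ^ 6 / 132 ≤ f) :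
    0 ≤ 2 * (8 / 100) * (1 - m) * θ ^ 3
      + 2 * (143 / 100) * f * (12 / 10 * (θ + 6931 / 10000 * (1 - θ))) - m * (1 + θ) := by
  set P : ℝ := 1 / 2 + a / 12 + a ^ 2 / 30 + a ^ 3 / 56 + a ^ 4 / 90 + a ^ 5 / 132 with hP
  have hm0 : 0 ≤ m := ha.trans ham
  have hq := cubic_nonneg2 (A := 2 * (8 / 100) * K)
    (B := 2 * (143 / 100) * (12 / 10) * (1 - 6931 / 10000) * P - 1)
    (C := 2 * (143 / 100) * (12 / 10) * (6931 / 10000) * P - 1) (by positivity) hθ0 hθ1 ht hz ho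
  have hPm : P ≤ 1 / 2 + m / 12 + m ^ 2 / 30 + m ^ 3 / 56 + m ^ 4 / 90 + m ^ 5 / 132 := by
    have h2 : a ^ 2 ≤ m ^ 2 := pow_le_pow_left₀ ha ham 2
    have h3 : a ^ 3 ≤ m ^ 3 := pow_le_pow_left₀ ha ham 3
    have h4 : a ^ 4 ≤ m ^ 4 := pow_le_pow_left₀ ha ham 4
    have h5 : a ^ 5 ≤ m ^ 5 := pow_le_pow_left₀ ha ham 5
    rw [hP]; linarith
  have hfP : m * P ≤ f := by
    have := mul_le_mul_of_nonneg_left hPm hm0
    have e : m * (1 / 2 + m / 12 + m ^ 2 / 30 + m ^ 3 / 56 + m ^ 4 / 90 + m ^ 5 / 132)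
      = m / 2 + m ^ 2 / 12 + m ^ 3 / 30 + m ^ 4 / 56 + m ^ 5 / 90 + m ^ 6 / 132 := by ring
    linarith
  have hKm : K * m ≤ 1 - m := by
    have : (K + 1) * m ≤ (K + 1) * b := mul_le_mul_of_nonneg_left hmb (by linarith)
    linarith
  have h1 : 0 ≤ 2 * (8 / 100) * (1 - m - K * m) * θ ^ 3 := by
    have : 0 ≤ 1 - m - K * m := by linarith
    positivity
  have h2 : 0 ≤ (2 * (143 / 100) * (12 / 10 * (θ + 6931 / 10000 * (1 - θ)))) * (f - m * P) := by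
    have a1 : 0 ≤ f - m * P := by linarith
    have a2 : 0 ≤ 1 - θ := by linarith
    positivity
  have h3 := mul_nonneg hm0 hq
  nlinarith [h1, h2, h3]

/-- Polynomial inequality (numerically the minimum of the right side divided by `m` is about `0.05`,
near `θ = 1`, `m = 0.56`; note `m ≤ 0.66` by `hf`, `hfU`).  Same method as `ax` in `AX.lean`:
split `m` into a few intervals, bound `f ≥ m (1/2 + m_i/12 + ...)`, `1 - m ≥ (1/m_{i+1} - 1) m`, and use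
`θ^3 ≥ 3 θ0^2 θ - 2 θ0^3`. -/
lemma ax2 {θ m f : ℝ} (hθ0 : 0 ≤ θ) (hθ1 : θ ≤ 1) (hm0 : 0 ≤ m)
    (hf : m / 2 + m ^ 2 / 12 + m ^ 3 / 30 + m ^ 4 / 56 + m ^ 5 / 90 + m ^ 6 / 132 ≤ f)
    (hfU : f ≤ 33 / 100) :
    0 ≤ 2 * (8 / 100) * (1 - m) * θ ^ 3
      + 2 * (143 / 100) * f * (12 / 10 * (θ + 6931 / 10000 * (1 - θ))) - m * (1 + θ) := by
  have hmU : m ≤ 59 / 100 := by
    by_contra hcon
    push Not at hcon
    have h2 : (59 / 100 : ℝ) ^ 2 ≤ m ^ 2 := pow_le_pow_left₀ (by norm_num) hcon.le 2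
    have h3 : (59 / 100 : ℝ) ^ 3 ≤ m ^ 3 := pow_le_pow_left₀ (by norm_num) hcon.le 3
    have h4 : 0 ≤ m ^ 4 / 56 + m ^ 5 / 90 + m ^ 6 / 132 := by positivity
    norm_num at h2 h3
    linarith
  rcases le_total m (1 / 4) with h1 | h1
  · exact ax2_piece 0 (1 / 4) 3 (23 / 40) hθ0 hθ1 le_rfl hm0 h1 (by norm_num) (by norm_num)
      (by norm_num) (by norm_num) (by norm_num) hf
  rcases le_total m (41 / 100) with h2 | h2
  · exact ax2_piece (1 / 4) (41 / 100) (59 / 41) (4 / 5) hθ0 hθ1 (by norm_num) h1 h2 (by norm_num)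
      (by norm_num) (by norm_num) (by norm_num) (by norm_num) hf
  rcases le_total m (13 / 25) with h3 | h3
  · exact ax2_piece (41 / 100) (13 / 25) (12 / 13) (39 / 40) hθ0 hθ1 (by norm_num) h2 h3 (by norm_num)
      (by norm_num) (by norm_num) (by norm_num) (by norm_num) hf
  · exact ax2_piece (13 / 25) (59 / 100) (41 / 59) 1 hθ0 hθ1 (by norm_num) h3 hmU (by norm_num)
      (by norm_num) (by norm_num) (by norm_num) (by norm_num) hf

lemma affine_nonneg2 {α β x a b : ℝ} (hax : a ≤ x) (hxb : x ≤ b) (ha : 0 ≤ α + β * a)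
    (hb : 0 ≤ α + β * b) : 0 ≤ α + β * x := by
  rcases le_total 0 β with h | h
  · have := mul_le_mul_of_nonneg_left hax h
    linarith
  · have := mul_le_mul_of_nonpos_left hxb h
    linarith

/-- Consequence of `ax2`.  The right side is nondecreasing in `e0`, `σ`, `xx`, so take `e0 = 8/100`,
`σ = 143/100`, `xx = 12/10 ((2L-1) X + (1-L) w)`, which is nondecreasing in `L` because `w ≤ 2 X`
(`1 - sqrt (1-w) ≥ w/2`); take `L = 6931/10000`.  The resulting expression is affine in `X`; at `X = w` it is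
`2 σ f (12/10) L w ≥ m w`; at `X = 1 - θ`, `θ = sqrt (1-w)`, `w = 1 - θ^2`, right minus left equals `(1 - θ)`
times the expression of `ax2`, since `(2L-1)(1-θ) + (1-L)(1-θ^2) = (1-θ)(θ + L (1-θ))`. -/
lemma starstar2 {L e0 σ w X m f xx : ℝ} (hL : 6931 / 10000 ≤ L) (hL1 : L ≤ 1)
    (he0 : 8 / 100 ≤ e0) (he1 : e0 ≤ 1) (hσ : 143 / 100 ≤ σ)
    (hw0 : 0 ≤ w) (hw1 : w ≤ 1) (hX0 : 1 - Real.sqrt (1 - w) ≤ X) (hX1 : X ≤ w) (hm0 : 0 ≤ m)
    (hf : m / 2 + m ^ 2 / 12 + m ^ 3 / 30 + m ^ 4 / 56 + m ^ 5 / 90 + m ^ 6 / 132 ≤ f)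
    (hfU : f ≤ 33 / 100)
    (hx : 12 / 10 * ((2 * L - 1) * X + (1 - L) * w) ≤ xx) :
    m * w ≤ 2 * (1 - m) * e0 * (1 - w) * (w - X) + 2 * σ * f * xx := by
  set θ : ℝ := Real.sqrt (1 - w) with hθ
  have hθ0 : 0 ≤ θ := Real.sqrt_nonneg _
  have hθsq : θ ^ 2 = 1 - w := Real.sq_sqrt (by linarith)
  have hθ1 : θ ≤ 1 := by
    rw [hθ]
    exact Real.sqrt_le_one.mpr (by linarith)
  have hw : w = 1 - θ ^ 2 := by linarith
  have hXn : 0 ≤ X := by linarith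
  have hfm : m / 2 ≤ f := by
    have : 0 ≤ m ^ 2 / 12 + m ^ 3 / 30 + m ^ 4 / 56 + m ^ 5 / 90 + m ^ 6 / 132 := by positivity
    linarith
  have hf0 : 0 ≤ f := by linarith
  have hm1 : m ≤ 1 := by linarith
  -- `w ≤ 2 X`
  have hw2X : w ≤ 2 * X := by
    have : w ≤ 2 * (1 - θ) := by
      rw [hw]; nlinarith [sq_nonneg (1 - θ)]
    linarith
  -- base case with the extreme constants
  have base : 0 ≤ (2 * (1 - m) * (8 / 100) * (1 - w) * w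
        + 2 * (143 / 100) * f * (12 / 10 * ((1 - 6931 / 10000) * w)) - m * w)
      + (-(2 * (1 - m) * (8 / 100) * (1 - w))
        + 2 * (143 / 100) * f * (12 / 10 * (2 * (6931 / 10000) - 1))) * X := by
    refine affine_nonneg2 hX0 hX1 ?_ ?_
    · have h := mul_nonneg (sub_nonneg.mpr hθ1) (ax2 hθ0 hθ1 hm0 hf hfU)
      rw [hw]
      nlinarith [h]
    · have : 0 ≤ w * (2 * (143 / 100) * (12 / 10) * (6931 / 10000) * f - m) :=
        mul_nonneg hw0 (by linarith)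
      nlinarith [this]
  -- monotonicity in the constants
  have h1 : 0 ≤ (e0 - 8 / 100) * (2 * (1 - m) * (1 - w) * (w - X)) := by
    have a1 : 0 ≤ e0 - 8 / 100 := by linarith
    have a2 : 0 ≤ 1 - m := by linarith
    have a3 : 0 ≤ 1 - w := by linarith
    have a4 : 0 ≤ w - X := by linarith
    positivity
  have hxx0 : 12 / 10 * ((2 * (6931 / 10000) - 1) * X + (1 - 6931 / 10000) * w) ≤ xx := by
    have : 0 ≤ (L - 6931 / 10000) * (2 * X - w) := mul_nonneg (by linarith) (by linarith)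
    nlinarith [this, hx]
  have hxxn : 0 ≤ xx := by
    have : 0 ≤ 12 / 10 * ((2 * (6931 / 10000) - 1) * X + (1 - 6931 / 10000) * w) := by positivity
    linarith
  have h2 : 0 ≤ (σ - 143 / 100) * (2 * f * xx) := by
    have a1 : 0 ≤ σ - 143 / 100 := by linarith
    positivity
  have h3 : 0 ≤ 2 * (143 / 100) * f
      * (xx - 12 / 10 * ((2 * (6931 / 10000) - 1) * X + (1 - 6931 / 10000) * w)) := by
    have : 0 ≤ xx - 12 / 10 * ((2 * (6931 / 10000) - 1) * X + (1 - 6931 / 10000) * w) := by linarith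
    positivity
  nlinarith [base, h1, h2, h3]

end Vale.Agent.Lib.P322.Pot
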