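import Vale.Agent.Lib.P322.Pot.Series

/-!
P322, potential method, range `ρ ≤ 7/10`: numerical facts about `Lam ρ`.
-/

namespace Vale.Agent.Lib.P322.Pot

open Real Set Vale.Agent.Lib.P322

/-- Second derivative test on `[0, 7/10]` (`nonneg_of_deriv2'` with `T = 71/100` say, or on `[0,7/10)` plus
continuity): `1 + t^2 + t^4 + 2 t^6 - 1/(1-t^2) = t^6 (1 - 2 t^2)/(1 - t^2) ≥ 0` for `t^2 ≤ 1/2`. -/
lemma Lam_upper_poly {t : ℝ} (h0 : 0 ≤ t) (h1 : t ≤ 7 / 10) :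
    Lam t ≤ t ^ 2 / 2 + t ^ 4 / 12 + t ^ 6 / 30 + t ^ 8 / 28 := by
  have key : ∀ s ∈ Ico (0:ℝ) (707 / 1000), 0 ≤
      (s ^ 2 / 2 + s ^ 4 / 12 + s ^ 6 / 30 + s ^ 8 / 28) - Lam s := by
    apply nonneg_of_deriv2'
      (D1 := fun s => (s + s ^ 3 / 3 + s ^ 5 / 5 + 2 * s ^ 7 / 7) - Lam1 s)
      (D2 := fun s => (1 + s ^ 2 + s ^ 4 + 2 * s ^ 6) - (1 / (1 - s ^ 2)))
    · intro s hs
      have a := (hasDerivAt_Lam (t := s) (by linarith [hs.1]) (by linarith [hs.2]))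
      have b : HasDerivAt (fun s : ℝ => s ^ 2 / 2 + s ^ 4 / 12 + s ^ 6 / 30 + s ^ 8 / 28)
          (s + s ^ 3 / 3 + s ^ 5 / 5 + 2 * s ^ 7 / 7) s := by
        have e := ((((hasDerivAt_id s).pow 2).div_const 2).add
          (((hasDerivAt_id s).pow 4).div_const 12)).add
          (((hasDerivAt_id s).pow 6).div_const 30) |>.add
          (((hasDerivAt_id s).pow 8).div_const 28)
        refine e.congr_deriv ?_
        simp only [id]
        norm_num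
        ring
      exact b.sub a
    · intro s hs
      have a := (hasDerivAt_Lam1 (t := s) (by linarith [hs.1]) (by linarith [hs.2]))
      have b : HasDerivAt (fun s : ℝ => s + s ^ 3 / 3 + s ^ 5 / 5 + 2 * s ^ 7 / 7)
          (1 + s ^ 2 + s ^ 4 + 2 * s ^ 6) s := by
        have e := (((hasDerivAt_id s).add
          (((hasDerivAt_id s).pow 3).div_const 3)).add
          (((hasDerivAt_id s).pow 5).div_const 5)).add
          ((((hasDerivAt_id s).pow 7).const_mul 2).div_const 7)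
        refine e.congr_deriv ?_
        simp only [id]
        norm_num
        ring
      exact b.sub a
    · intro s hs
      have hsq : s ^ 2 ≤ 1 / 2 := by nlinarith [hs.1, hs.2]
      have hs2 : 0 < 1 - s ^ 2 := by linarith
      have : 1 / (1 - s ^ 2) ≤ 1 + s ^ 2 + s ^ 4 + 2 * s ^ 6 := by
        rw [div_le_iff₀ hs2]
        have h6 : 0 ≤ s ^ 6 * (1 - 2 * s ^ 2) := mul_nonneg (by positivity) (by linarith)
        nlinarith
      linarith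
    · simp
    · simp
  have := key t ⟨h0, by linarith⟩
  linarith

lemma Lam_le_mid {ρ : ℝ} (h0 : 0 ≤ ρ) (h1 : ρ ≤ 7 / 10) : Lam ρ ≤ 271 / 1000 := by
  have h := Lam_upper_poly h0 h1
  have e2 : ρ ^ 2 ≤ (7 / 10 : ℝ) ^ 2 := pow_le_pow_left₀ h0 h1 2
  have e4 : ρ ^ 4 ≤ (7 / 10 : ℝ) ^ 4 := pow_le_pow_left₀ h0 h1 4
  have e6 : ρ ^ 6 ≤ (7 / 10 : ℝ) ^ 6 := pow_le_pow_left₀ h0 h1 6
  have e8 : ρ ^ 8 ≤ (7 / 10 : ℝ) ^ 8 := pow_le_pow_left₀ h0 h1 8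
  norm_num at e2 e4 e6 e8
  linarith

/-- From `Lam_poly_le`: `Lam ρ ≥ ρ^2/2 + ρ^4/12 ≥ 1/8 + 1/192`. -/
lemma Lam_ge_mid {ρ : ℝ} (h0 : 1 / 2 ≤ ρ) (h1 : ρ ≤ 1) : 13 / 100 ≤ Lam ρ := by
  have h := Lam_poly_le (t := ρ) (by linarith) h1
  have e2 : (1 / 2 : ℝ) ^ 2 ≤ ρ ^ 2 := pow_le_pow_left₀ (by norm_num) h0 2
  have e4 : ((1 / 2 : ℝ) ^ 2) ^ 2 ≤ (ρ ^ 2) ^ 2 := pow_le_pow_left₀ (by norm_num) e2 2
  have p3 : 0 ≤ (ρ ^ 2) ^ 3 := by positivity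
  have p4 : 0 ≤ (ρ ^ 2) ^ 4 := by positivity
  have p5 : 0 ≤ (ρ ^ 2) ^ 5 := by positivity
  have p6 : 0 ≤ (ρ ^ 2) ^ 6 := by positivity
  norm_num at e2 e4
  linarith

/-- With `z = ρ^2 ∈ [0, 0.49]` and `Lam ρ ≥ z/2 + z^2/12 + z^3/30` it is enough that
`1.2 log 2 - 1 + z - 1.2 (z/2 + z^2/12 + z^3/30) ≤ 0`; the left side is increasing in `z` and is about
`-0.0009` at `z = 0.49`. -/
lemma Cx_bound {ρ : ℝ} (h0 : 0 ≤ ρ) (h1 : ρ ≤ 7 / 10) :
    12 / 10 * (Real.log 2 - Lam ρ) ≤ 1 - ρ ^ 2 := by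
  have h := Lam_poly_le (t := ρ) (by linarith) (by linarith)
  have hz1 : ρ ^ 2 ≤ 49 / 100 := by
    have := pow_le_pow_left₀ h0 h1 2
    norm_num at this
    exact this
  have hz0 : 0 ≤ ρ ^ 2 := by positivity
  set z := ρ ^ 2 with hz
  have p4 : 0 ≤ z ^ 4 := by positivity
  have p5 : 0 ≤ z ^ 5 := by positivity
  have p6 : 0 ≤ z ^ 6 := by positivity
  have hl := Real.log_two_lt_d9
  have hb : 0 ≤ (49 / 100 - z) *
      (4 / 10 - 1 / 10 * (49 / 100 + z) - 4 / 100 * ((49 / 100) ^ 2 + 49 / 100 * z + z ^ 2)) := by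
    apply mul_nonneg (by linarith)
    nlinarith
  nlinarith

/-- Equivalent to `z log 2 ≤ Lam ρ (1.51 - 0.51 z)`, `z = ρ^2`.  Use `Lam_poly_le`:
`log 2 ≤ (1.51 - 0.51 z)(1/2 + z/12 + z^2/30 + z^3/56 + z^4/90 + z^5/132)` on `[0, 0.49]`
(the right side is `0.755` at `0` and about `0.6953` at `0.49`). -/
lemma Jc_bound {ρ : ℝ} (h0 : 0 ≤ ρ) (h1 : ρ ≤ 7 / 10) :
    ρ ^ 2 * (Real.log 2 - Lam ρ) ≤ (1 - ρ ^ 2) * Lam ρ * (1 + 51 / 100) := by
  have h := Lam_poly_le (t := ρ) (by linarith) (by linarith)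
  have hz1 : ρ ^ 2 ≤ 49 / 100 := by
    have := pow_le_pow_left₀ h0 h1 2
    norm_num at this
    exact this
  have hz0 : 0 ≤ ρ ^ 2 := by positivity
  set z := ρ ^ 2 with hz
  have p5 : 0 ≤ z ^ 5 := by positivity
  have p6 : 0 ≤ z ^ 6 := by positivity
  have hl := Real.log_two_lt_d9
  have hL : z * (1 / 2 + z / 12 + z ^ 2 / 30 + z ^ 3 / 56) ≤ Lam ρ := by nlinarith
  have hc : 0 ≤ 151 / 100 - 51 / 100 * z := by linarith
  have hP : Real.log 2 ≤ (151 / 100 - 51 / 100 * z) * (1 / 2 + z / 12 + z ^ 2 / 30 + z ^ 3 / 56) := by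
    have hb : 0 ≤ (49 / 100 - z) * (129 / 1000 - 8 / 1000 * (z + 49 / 100)) := by
      apply mul_nonneg (by linarith)
      linarith
    have hcub : 0 ≤ z ^ 3 * (99 / 10000 - 92 / 10000 * z) := by
      apply mul_nonneg (by positivity)
      linarith
    nlinarith
  have h2 : z * Real.log 2 ≤ (151 / 100 - 51 / 100 * z) * Lam ρ := by
    calc z * Real.log 2
        ≤ z * ((151 / 100 - 51 / 100 * z) * (1 / 2 + z / 12 + z ^ 2 / 30 + z ^ 3 / 56)) :=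
          mul_le_mul_of_nonneg_left hP hz0
      _ = (151 / 100 - 51 / 100 * z) * (z * (1 / 2 + z / 12 + z ^ 2 / 30 + z ^ 3 / 56)) := by ring
      _ ≤ _ := mul_le_mul_of_nonneg_left hL hc
  nlinarith

end Vale.Agent.Lib.P322.Pot
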