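import Vale.Agent.Lib.P322.Pot.Frame
import Vale.Agent.Lib.P322.Pot.Mid.Consts
import Vale.Agent.Lib.P322.Pot.Mid.AX2

/-!
P322, potential method, range `ρ ≤ 7/10`: the pointwise hypothesis.
-/

namespace Vale.Agent.Lib.P322.Pot

open Real Vale.Agent.Lib.P322

/-- Two-point strong data processing: `Lam_pair_eq` with `z = ρ v` and `z = v`, and
`Lam (ρ t) ≤ ρ^2 Lam t` (`Lam_mul_le'`). -/
lemma eS_le_sq_mul {ρ u v : ℝ} (hρ0 : 0 ≤ ρ) (hρ1 : ρ ≤ 1) (huv : |u| + |v| ≤ 1) (hu : |u| < 1) :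
    (Lam (u + ρ * v) + Lam (u - ρ * v)) / 2 - Lam u
      ≤ ρ ^ 2 * ((Lam (u + v) + Lam (u - v)) / 2 - Lam u) := by
  obtain ⟨h1, h2⟩ := abs_lt.mp hu
  have hp : 0 < 1 + u := by linarith
  have hq : 0 < 1 - u := by linarith
  have hv1 : |v| ≤ 1 + u := by have := neg_abs_le u; linarith
  have hv2 : |v| ≤ 1 - u := by have := le_abs_self u; linarith
  obtain ⟨b1, b2⟩ := abs_le.mp hv1
  obtain ⟨b3, b4⟩ := abs_le.mp hv2
  rw [Lam_pair_eq hu, Lam_pair_eq hu]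
  have c1 := Lam_mul_le' (l := ρ) (t := v / (1 + u)) hρ0 hρ1
    (by rw [le_div_iff₀ hp]; linarith) (by rw [div_le_one hp]; exact b2)
  have c2 := Lam_mul_le' (l := ρ) (t := v / (1 - u)) hρ0 hρ1
    (by rw [le_div_iff₀ hq]; linarith) (by rw [div_le_one hq]; exact b4)
  rw [← mul_div_assoc] at c1 c2
  have m1 := mul_le_mul_of_nonneg_left c1 hp.le
  have m2 := mul_le_mul_of_nonneg_left c2 hq.le
  nlinarith [m1, m2]

/-- real-number part of the new item of `atom_facts2` -/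
lemma atom_c1_real {L h r2 a w e1 er : ℝ} (hh : 0 < h) (hL0 : 1 / 2 ≤ L) (hL1 : L ≤ 1)
    (ha1 : a ≤ 1) (w0 : 0 ≤ w) (hr : r2 ≤ 1) (hCx : 12 / 10 * h ≤ 1 - r2)
    (he1 : L - (2 * L - 1) * a - (1 - L) * (1 - w) ≤ e1) (her : er ≤ r2 * e1) :
    12 / 10 * ((2 * L - 1) * (1 - a) + (1 - L) * w) ≤ (e1 - er) / h := by
  rw [le_div_iff₀ hh]
  have hT0 : 0 ≤ (2 * L - 1) * (1 - a) + (1 - L) * w := by
    have i1 : 0 ≤ (2 * L - 1) * (1 - a) := mul_nonneg (by linarith) (by linarith)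
    have i2 : 0 ≤ (1 - L) * w := mul_nonneg (by linarith) w0
    linarith
  have hT1 : (2 * L - 1) * (1 - a) + (1 - L) * w ≤ e1 := by linarith
  have j1 := mul_le_mul_of_nonneg_right hCx hT0
  have j2 := mul_le_mul_of_nonneg_left hT1 (sub_nonneg.mpr hr)
  have e : 12 / 10 * ((2 * L - 1) * (1 - a) + (1 - L) * w) * h
      = 12 / 10 * h * ((2 * L - 1) * (1 - a) + (1 - L) * w) := by ring
  rw [e]
  have e2 : (1 - r2) * e1 = e1 - r2 * e1 := by ring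
  linarith

/-- `1 - u^2 - v^2 ≤ Jb lam (cf u v)` -/
lemma le_Jb_cf {lam u v : ℝ} (hlam0 : 0 ≤ lam) (hlt : lam < Real.log 2) (huv : |u| + |v| ≤ 1) :
    1 - u ^ 2 - v ^ 2 ≤ Jb lam (cf u v) := by
  have hc0 := cf_nonneg huv
  have hz := sq_add_sq_le huv
  apply le_Jb hlam0 hlt hc0
  have h := cf_ge huv
  unfold ub
  have hz0 : 0 ≤ 1 - u ^ 2 - v ^ 2 := by linarith
  have hz1 : 1 - u ^ 2 - v ^ 2 ≤ 1 := by nlinarith [sq_nonneg u, sq_nonneg v]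
  nlinarith [mul_nonneg hlam0 (mul_nonneg hz0 (sub_nonneg.mpr hz1))]

/-- The facts about one atom with `|u| < 1`, for `ρ ≤ 7/10`.  Same proof as `atom_facts`
(file `Pointwise.lean`) with `Lam_le_mid` in place of `Lam_le_of_le_half`; the new third-from-last item follows from
`eS_le_sq_mul`, `e1_lower` (note `log 2 - c0 a - (1 - log 2)(1 - w) = c0 (1 - a) + (1 - log 2) w`, `c0 = 2 log 2 - 1`)
and `Cx_bound`. -/
lemma atom_facts2 {ρ u v : ℝ} (hρ0 : 0 ≤ ρ) (hρ : ρ ≤ 7 / 10) (huv : |u| + |v| ≤ 1) (hu : |u| < 1) :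
    ∃ X w : ℝ, 0 ≤ w ∧ w ≤ 1 ∧ 1 - Real.sqrt (1 - w) ≤ X ∧ X ≤ w ∧ w * (1 - u ^ 2) = v ^ 2 ∧
      12 / 10 * ((2 * Real.log 2 - 1) * X + (1 - Real.log 2) * w)
        ≤ Gf ρ u v / (Real.log 2 - Lam ρ) ∧
      v ^ 2 + 2 * (1 - (2 * Real.log 2 - 1) / (Real.log 2 - Lam ρ)) * (1 - u ^ 2 - v ^ 2) * (w - X)
        ≤ Gf ρ u v / (Real.log 2 - Lam ρ)
            * (Gf ρ u v / (Real.log 2 - Lam ρ) + 2 * Jb (Lam ρ) (cf u v)) := by
  have hL0 : (0.6931471803 : ℝ) < Real.log 2 := Real.log_two_gt_d9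
  have hL1 : Real.log 2 < 0.6931471808 := Real.log_two_lt_d9
  have hlam0 : 0 ≤ Lam ρ := Lam_nonneg hρ0 (by linarith)
  have hlam1 : Lam ρ ≤ 271 / 1000 := Lam_le_mid hρ0 hρ
  have hlt : Lam ρ < Real.log 2 := by linarith
  have hh : 0 < Real.log 2 - Lam ρ := by linarith
  obtain ⟨a, d, ha0, ha1, hd, hua, hva, haeq⟩ := param huv
  have hu1 : u ^ 2 < 1 := by
    have := abs_nonneg u
    rw [← sq_abs]; nlinarith
  have hupos : 0 < 1 - u ^ 2 := by linarith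
  have hub := abs_lt.mp hu
  have he1 := e1_lower huv hu
  rw [← haeq] at he1
  have her := eS_upper hρ0 (by linarith) huv hu
  have her2 := eS_le_sq_mul hρ0 (by linarith) huv hu
  have hLu := Lam_le_log_two_mul_sq (t := u) hub.1.le hub.2.le
  have hc0 := cf_nonneg huv
  have hy0 : 0 ≤ Jb (Lam ρ) (cf u v) := Jb_nonneg hlam0 hlt hc0
  have hy : (Real.log 2 - Lam ρ) * Jb (Lam ρ) (cf u v) + Lam ρ * Jb (Lam ρ) (cf u v) ^ 2
      = Real.log 2 - Lam u - ((Lam (u + v) + Lam (u - v)) / 2 - Lam u) := by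
    have h := ub_Jb hlam0 hlt hc0
    unfold ub at h
    rw [h]; unfold cf; ring
  have hz := sq_add_sq_le huv
  have hy1 : 1 - u ^ 2 - v ^ 2 ≤ Jb (Lam ρ) (cf u v) := le_Jb_cf hlam0 hlt huv
  obtain ⟨_, c2⟩ := core (L := Real.log 2) (lam := Lam ρ) (a := a) (d := d) (u := u) (v := v)
    (w := v ^ 2 / (1 - u ^ 2)) (e1 := (Lam (u + v) + Lam (u - v)) / 2 - Lam u)
    (er := (Lam (u + ρ * v) + Lam (u - ρ * v)) / 2 - Lam u) (Lu := Lam u)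
    (y := Jb (Lam ρ) (cf u v)) (by linarith) (by linarith) hlam0 (by linarith) ha0 ha1 hd hua hva hu1
    rfl he1 her hLu hy0 hy hy1
  have hx : ((Lam (u + v) + Lam (u - v)) / 2 - Lam u
      - ((Lam (u + ρ * v) + Lam (u - ρ * v)) / 2 - Lam u)) = Gf ρ u v := by
    unfold Gf; ring
  rw [hx] at c2
  obtain ⟨w0, w1⟩ := param_w ha0 ha1 hd hua hva hu1 rfl
  have c1 : 12 / 10 * ((2 * Real.log 2 - 1) * (1 - a) + (1 - Real.log 2) * (v ^ 2 / (1 - u ^ 2)))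
      ≤ Gf ρ u v / (Real.log 2 - Lam ρ) := by
    rw [← hx]
    exact atom_c1_real hh (by linarith) (by linarith) ha1 w0 (pow_le_one₀ hρ0 (by linarith)) (Cx_bound hρ0 hρ)
      he1 her2
  refine ⟨1 - a, v ^ 2 / (1 - u ^ 2), w0, w1, param_G1 ha0 ha1 hd hua hva hu1 rfl,
    param_G2 ha0 ha1 hd hua hva hu1 rfl, ?_, c1, c2⟩
  field_simp

/-- `0 < h`, `8/100 ≤ e0 ≤ 1` for `ρ ≤ 7/10` (`Lam_le_mid`, bounds on `log 2`: `1.08 log 2 + 0.92 * 0.271 ≤ 1`). -/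
lemma const_facts2 {ρ : ℝ} (hρ0 : 0 ≤ ρ) (hρ : ρ ≤ 7 / 10) :
    0 < Real.log 2 - Lam ρ ∧ 8 / 100 ≤ 1 - (2 * Real.log 2 - 1) / (Real.log 2 - Lam ρ) ∧
      1 - (2 * Real.log 2 - 1) / (Real.log 2 - Lam ρ) ≤ 1 := by
  have hL0 : (0.6931471803 : ℝ) < Real.log 2 := Real.log_two_gt_d9
  have hL1 : Real.log 2 < 0.6931471808 := Real.log_two_lt_d9
  have hlam0 : 0 ≤ Lam ρ := Lam_nonneg hρ0 (by linarith)
  have hlam1 : Lam ρ ≤ 271 / 1000 := Lam_le_mid hρ0 hρ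
  have hh : 0 < Real.log 2 - Lam ρ := by linarith
  refine ⟨hh, ?_, ?_⟩
  · have : (2 * Real.log 2 - 1) / (Real.log 2 - Lam ρ) ≤ 92 / 100 := by
      rw [div_le_iff₀ hh]; linarith
    linarith
  · have : 0 ≤ (2 * Real.log 2 - 1) / (Real.log 2 - Lam ρ) := div_nonneg (by linarith) hh.le
    linarith

/-- The pointwise inequality for `ρ ≤ 7/10`.  Same proof as `pw5`, with `atom_facts2`, `const_facts2`,
`starstar2` (`L = log 2`, `xx = Gf/h`, `f = Lam μ`, `m = μ^2`). -/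
theorem pw5b {ρ u v μ σ : ℝ} (hρ0 : 0 ≤ ρ) (hρ : ρ ≤ 7 / 10) (huv : |u| + |v| ≤ 1) (hμ : |μ| ≤ 1)
    (hσ : 143 / 100 ≤ σ) (hU : Lam μ ≤ 33 / 100) :
    v ^ 2 ≤ (Gf ρ u v / (Real.log 2 - Lam ρ)) *
      ((1 - μ ^ 2) * (Gf ρ u v / (Real.log 2 - Lam ρ) + 2 * Jb (Lam ρ) (cf u v))
        + 2 * σ * Lam μ * (1 - u ^ 2)) := by
  rcases lt_or_ge |u| 1 with hu | hu
  · obtain ⟨X, w, w0, w1, hX0, hX1, hwv, c1, c2⟩ := atom_facts2 hρ0 hρ huv hu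
    obtain ⟨hh, e0a, e0b⟩ := const_facts2 hρ0 hρ
    have hL0 : (0.6931471803 : ℝ) < Real.log 2 := Real.log_two_gt_d9
    have hL1 : Real.log 2 < 0.6931471808 := Real.log_two_lt_d9
    have hμb := abs_le.mp hμ
    have hm0 : 0 ≤ μ ^ 2 := sq_nonneg μ
    have hm1 : μ ^ 2 ≤ 1 := by nlinarith
    have hf := Lam_poly_le hμb.1 hμb.2
    have hfn : 0 ≤ Lam μ := Lam_nonneg' hμb.1 hμb.2
    have ss := starstar2 (L := Real.log 2) (by linarith) (by linarith) e0a e0b hσ w0 w1 hX0 hX1 hm0 hf hU c1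
    have hu1 : 0 < 1 - u ^ 2 := by
      have := abs_nonneg u
      rw [← sq_abs]; nlinarith
    set x := Gf ρ u v / (Real.log 2 - Lam ρ) with hx
    set y := Jb (Lam ρ) (cf u v) with hy
    set e0 := 1 - (2 * Real.log 2 - 1) / (Real.log 2 - Lam ρ) with he0
    have hz : 1 - u ^ 2 - v ^ 2 = (1 - u ^ 2) * (1 - w) := by rw [← hwv]; ring
    rw [hz] at c2
    have k1 : (1 - μ ^ 2) * (v ^ 2 + 2 * e0 * ((1 - u ^ 2) * (1 - w)) * (w - X))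
        ≤ (1 - μ ^ 2) * (x * (x + 2 * y)) := mul_le_mul_of_nonneg_left c2 (by linarith)
    have k3 : (1 - u ^ 2) * (μ ^ 2 * w) ≤ (1 - u ^ 2) *
        (2 * (1 - μ ^ 2) * e0 * (1 - w) * (w - X) + 2 * σ * Lam μ * x) :=
      mul_le_mul_of_nonneg_left ss hu1.le
    have k4 : (1 - u ^ 2) * (μ ^ 2 * w) = μ ^ 2 * v ^ 2 := by rw [← hwv]; ring
    nlinarith [k1, k3, k4]
  · have hv := v_zero_of huv hu
    rw [hv, Gf_zero]; simp

/-- Tangent line: `c = ub y ≥ ub J + (h + 2 lam J)(y - J)` for `y = Jb lam c`, that is `R y ≤ lam J^2 + c`. -/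
lemma Jb_le_tangent {lam c J : ℝ} (h0 : 0 ≤ lam) (h1 : lam < Real.log 2) (hc : 0 ≤ c) (hJ : 0 ≤ J) :
    Jb lam c ≤ (lam * J ^ 2 + c) / (Real.log 2 - lam + 2 * lam * J) := by
  have hR : 0 < Real.log 2 - lam + 2 * lam * J := by
    have : 0 ≤ 2 * lam * J := by positivity
    linarith
  have hub : ub lam (Jb lam c) = c := ub_Jb h0 h1 hc
  rw [le_div_iff₀ hR]
  have hsq : 0 ≤ lam * (J - Jb lam c) ^ 2 := by positivity
  unfold ub at hub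
  nlinarith [hsq, hub]

/-- From an inequality of the type of `pw5` / `pw5b` with `σ = 1/R`, `R = h + 2 lam J`, to the form used in `PWhyp`, with
`κ = -2 μ/(1-μ^2)`: `(1-μ^2)(1 + κ (u-μ)) = 1 + μ^2 - 2 μ u = (1-u^2) + (u-μ)^2 ≥ 1 - u^2`, and `Jb_le_tangent`. -/
lemma PW_of_pw5 {ρ μ J : ℝ} (hρ0 : 0 ≤ ρ) (hρ1 : ρ < 1) (hμ : |μ| < 1) (hJ : 0 ≤ J)
    (H : ∀ u v : ℝ, |u| + |v| ≤ 1 →
      v ^ 2 ≤ (Gf ρ u v / (Real.log 2 - Lam ρ)) *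
        ((1 - μ ^ 2) * (Gf ρ u v / (Real.log 2 - Lam ρ) + 2 * Jb (Lam ρ) (cf u v))
          + 2 * (1 / (Real.log 2 - Lam ρ + 2 * Lam ρ * J)) * Lam μ * (1 - u ^ 2))) :
    ∃ κ : ℝ, (∀ u : ℝ, |u| ≤ 1 → 0 ≤ 1 + κ * (u - μ)) ∧
      ∀ u v : ℝ, |u| + |v| ≤ 1 →
        v ^ 2 ≤ (1 - μ ^ 2) * (Gf ρ u v / (Real.log 2 - Lam ρ)) *
          (Gf ρ u v / (Real.log 2 - Lam ρ)
            + 2 * (Lam ρ * J ^ 2 + cf u v + Lam μ * (1 + κ * (u - μ)))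
                / (Real.log 2 - Lam ρ + 2 * Lam ρ * J)) := by
  have hl0 : 0 ≤ Lam ρ := Lam_nonneg hρ0 hρ1.le
  have hl1 : Lam ρ < Real.log 2 := Lam_lt_log_two' hρ0 hρ1
  have hh : 0 < Real.log 2 - Lam ρ := by linarith
  have hμ' := abs_lt.1 hμ
  have hLμ : 0 ≤ Lam μ := Lam_nonneg' hμ'.1.le hμ'.2.le
  have hw : 0 < 1 - μ ^ 2 := by
    have := (sq_lt_one_iff_abs_lt_one μ).mpr hμ
    linarith
  have hR : 0 < Real.log 2 - Lam ρ + 2 * Lam ρ * J := by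
    have : 0 ≤ 2 * Lam ρ * J := by positivity
    linarith
  have hκ : ∀ u : ℝ, (1 - μ ^ 2) * (1 + (-2 * μ / (1 - μ ^ 2)) * (u - μ))
      = (1 - u ^ 2) + (u - μ) ^ 2 := by
    intro u
    field_simp
    ring
  refine ⟨-2 * μ / (1 - μ ^ 2), ?_, ?_⟩
  · intro u hu
    have h1 : 0 ≤ 1 - u ^ 2 := by
      have := (sq_le_one_iff_abs_le_one u).mpr hu
      linarith
    have h2 : 0 ≤ (1 - μ ^ 2) * (1 + (-2 * μ / (1 - μ ^ 2)) * (u - μ)) := by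
      rw [hκ u]
      positivity
    exact nonneg_of_mul_nonneg_right h2 hw
  · intro u v huv
    have hH := H u v huv
    have hx : 0 ≤ Gf ρ u v / (Real.log 2 - Lam ρ) := div_nonneg (Gf_nonneg' hρ0 hρ1.le huv) hh.le
    have hc : 0 ≤ cf u v := cf_nonneg huv
    have hy := Jb_le_tangent hl0 hl1 hc hJ
    set x := Gf ρ u v / (Real.log 2 - Lam ρ) with hxdef
    set y := Jb (Lam ρ) (cf u v) with hydef
    set R := Real.log 2 - Lam ρ + 2 * Lam ρ * J with hRdef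
    set κ := -2 * μ / (1 - μ ^ 2) with hκdef
    have hk := hκ u
    have e1 : (1 - μ ^ 2) * (x + 2 * y) + 2 * (1 / R) * Lam μ * (1 - u ^ 2)
        ≤ (1 - μ ^ 2) * (x + 2 * (Lam ρ * J ^ 2 + cf u v + Lam μ * (1 + κ * (u - μ))) / R) := by
      have a1 : (1 - μ ^ 2) * y ≤ (1 - μ ^ 2) * ((Lam ρ * J ^ 2 + cf u v) / R) :=
        mul_le_mul_of_nonneg_left hy hw.le
      have a2 : Lam μ * (1 - u ^ 2) / R ≤ Lam μ * ((1 - μ ^ 2) * (1 + κ * (u - μ))) / R := by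
        apply div_le_div_of_nonneg_right _ hR.le
        apply mul_le_mul_of_nonneg_left _ hLμ
        rw [hk]
        nlinarith [sq_nonneg (u - μ)]
      have a3 : (1 - μ ^ 2) * (x + 2 * (Lam ρ * J ^ 2 + cf u v + Lam μ * (1 + κ * (u - μ))) / R)
          = (1 - μ ^ 2) * x + 2 * ((1 - μ ^ 2) * ((Lam ρ * J ^ 2 + cf u v) / R))
            + 2 * (Lam μ * ((1 - μ ^ 2) * (1 + κ * (u - μ))) / R) := by
        field_simp
        ring
      have a4 : 2 * (1 / R) * Lam μ * (1 - u ^ 2) = 2 * (Lam μ * (1 - u ^ 2) / R) := by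
        field_simp
      rw [a3, a4]
      linarith
    calc v ^ 2 ≤ x * ((1 - μ ^ 2) * (x + 2 * y) + 2 * (1 / R) * Lam μ * (1 - u ^ 2)) := hH
      _ ≤ x * ((1 - μ ^ 2) * (x + 2 * (Lam ρ * J ^ 2 + cf u v + Lam μ * (1 + κ * (u - μ))) / R)) :=
          mul_le_mul_of_nonneg_left e1 hx
      _ = _ := by ring

/-- `ρ ≤ 1/2`: from `pw5`, since `1/(log 2 + lam) ≤ 1/(h + 2 lam J)` for `J ≤ 1` (the right side of `pw5` is
nondecreasing in the coefficient of `Lam μ (1-u^2)`; `Gf_nonneg`). -/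
theorem PWhyp_low {ρ : ℝ} (hρ0 : 0 ≤ ρ) (hρ : ρ ≤ 1 / 2) : PWhyp ρ := by
  intro μ J hμ hJ0 hJ1 _ _
  have hρ1 : ρ < 1 := by linarith
  have hl0 : 0 ≤ Lam ρ := Lam_nonneg hρ0 hρ1.le
  have hl1 : Lam ρ < Real.log 2 := Lam_lt_log_two' hρ0 hρ1
  have hh : 0 < Real.log 2 - Lam ρ := by linarith
  have hμ' := abs_lt.1 hμ
  have hLμ : 0 ≤ Lam μ := Lam_nonneg' hμ'.1.le hμ'.2.le
  have hR : 0 < Real.log 2 - Lam ρ + 2 * Lam ρ * J := by
    have : 0 ≤ 2 * Lam ρ * J := by positivity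
    linarith
  apply PW_of_pw5 hρ0 hρ1 hμ hJ0
  intro u v huv
  have h5 := pw5 (μ := μ) hρ0 hρ huv hμ.le
  have hx : 0 ≤ Gf ρ u v / (Real.log 2 - Lam ρ) := div_nonneg (Gf_nonneg' hρ0 hρ1.le huv) hh.le
  have hu1 : 0 ≤ 1 - u ^ 2 := by
    have h1 : |u| ≤ 1 := by linarith [abs_nonneg v]
    have := (sq_le_one_iff_abs_le_one u).mpr h1
    linarith
  have hle : 1 / (Real.log 2 + Lam ρ) ≤ 1 / (Real.log 2 - Lam ρ + 2 * Lam ρ * J) := by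
    apply one_div_le_one_div_of_le hR
    have : Lam ρ * J ≤ Lam ρ * 1 := mul_le_mul_of_nonneg_left hJ1 hl0
    linarith
  refine h5.trans (mul_le_mul_of_nonneg_left ?_ hx)
  have : 2 * (1 / (Real.log 2 + Lam ρ)) * Lam μ * (1 - u ^ 2)
      ≤ 2 * (1 / (Real.log 2 - Lam ρ + 2 * Lam ρ * J)) * Lam μ * (1 - u ^ 2) := by
    apply mul_le_mul_of_nonneg_right _ hu1
    apply mul_le_mul_of_nonneg_right _ hLμ
    linarith
  linarith

/-- `1/2 ≤ ρ ≤ 7/10`: the cut hypothesis and `Jc_bound` give `J < 51/100` (`(1-ρ^2) Lam ρ > 0`); hence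
`R = h + 2 lam J ≤ log 2 + 0.02 lam ≤ 100/143` and `Lam μ ≤ ub J ≤ 0.51 log 2 - 0.2499 lam ≤ 33/100`
(`Lam_ge_mid`, `Lam_le_mid`).  Then `pw5b` with `σ = 1/R` and `PW_of_pw5`. -/
theorem PWhyp_mid {ρ : ℝ} (hρ0 : 1 / 2 ≤ ρ) (hρ : ρ ≤ 7 / 10) : PWhyp ρ := by
  intro μ J hμ hJ0 hJ1 hcut hub
  have hρ0' : 0 ≤ ρ := by linarith
  have hρ1 : ρ < 1 := by linarith
  have hlo : 13 / 100 ≤ Lam ρ := Lam_ge_mid hρ0 hρ1.le
  have hhi : Lam ρ ≤ 271 / 1000 := Lam_le_mid hρ0' hρ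
  have hl0 : 0 ≤ Lam ρ := by linarith
  have hl1 : Lam ρ < Real.log 2 := Lam_lt_log_two' hρ0' hρ1
  have hh : 0 < Real.log 2 - Lam ρ := by linarith
  have hlog1 := Real.log_two_lt_d9
  have hlog2 := Real.log_two_gt_d9
  have hJc := Jc_bound hρ0' hρ
  have hpos : 0 < (1 - ρ ^ 2) * Lam ρ := by
    have : 0 < 1 - ρ ^ 2 := by nlinarith
    have : 0 < Lam ρ := by linarith
    positivity
  have hJ : J < 51 / 100 := by
    have h1 : (1 - ρ ^ 2) * Lam ρ * (1 + J) < (1 - ρ ^ 2) * Lam ρ * (1 + 51 / 100) :=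
      lt_of_lt_of_le hcut hJc
    have := lt_of_mul_lt_mul_left h1 hpos.le
    linarith
  have hR : 0 < Real.log 2 - Lam ρ + 2 * Lam ρ * J := by
    have : 0 ≤ 2 * Lam ρ * J := by positivity
    linarith
  have hRle : Real.log 2 - Lam ρ + 2 * Lam ρ * J ≤ 100 / 143 := by
    have : Lam ρ * J ≤ Lam ρ * (51 / 100) := mul_le_mul_of_nonneg_left hJ.le hl0
    linarith
  have hσ : 143 / 100 ≤ 1 / (Real.log 2 - Lam ρ + 2 * Lam ρ * J) := by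
    rw [le_div_iff₀ hR]
    linarith
  have hU : Lam μ ≤ 33 / 100 := by
    refine hub.trans ?_
    unfold ub
    have a1 : (Real.log 2 - Lam ρ) * J ≤ (Real.log 2 - Lam ρ) * (51 / 100) :=
      mul_le_mul_of_nonneg_left hJ.le hh.le
    have a2 : J ^ 2 ≤ (51 / 100) ^ 2 := pow_le_pow_left₀ hJ0 hJ.le 2
    have a3 : Lam ρ * J ^ 2 ≤ Lam ρ * (51 / 100) ^ 2 := mul_le_mul_of_nonneg_left a2 hl0
    linarith
  apply PW_of_pw5 hρ0' hρ1 hμ hJ0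
  intro u v huv
  exact pw5b hρ0' hρ huv hμ.le hσ hU

/-- The Courtade-Kumar inequality for all Boolean functions when `3/20 ≤ ε ≤ 1/2`. -/
theorem ck_mid {ε : ℝ} (h0 : 3 / 20 ≤ ε) (h1 : ε ≤ 1 / 2) {n : ℕ} (f : Cube n → ℤˣ) :
    infoFY ε f ≤ 1 - h2 ε := by
  apply ck_gen (by linarith) h1
  rcases le_total (1 - 2 * ε) (1 / 2) with h | h
  · exact PWhyp_low (by linarith) h
  · exact PWhyp_mid h (by linarith)

end Vale.Agent.Lib.P322.Pot
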